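import Vale.Agent.P154.Neg.Grid.Runs.Base
import Vale.Agent.P154.Neg.Grid.Runs.E1.Agg
import Vale.Agent.P154.Neg.Grid.Runs.GG.Agg
import Vale.Agent.P154.Neg.Grid.Runs.E1.PoiStates
import Vale.Agent.P154.Neg.Grid.RunPoi

/-!
# P154: later levels of the run at the edge -32/65
-/

namespace Vale.Agent.P154.Neg.Grid.Runs.E1.Poi

def chunk11 : poiOk (mkPar 32 65) qs g1 g2 GG.g4 5 st11 st12 = true := by decide +kernel

def chunk12 : poiOk (mkPar 32 65) qs g1 g2 GG.g4 5 st12 st13 = true := by decide +kernel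

def chunk13 : poiOk (mkPar 32 65) qs g1 g2 GG.g4 5 st13 st14 = true := by decide +kernel

def chunk14 : poiOk (mkPar 32 65) qs g1 g2 GG.g4 5 st14 st15 = true := by decide +kernel

def chunk15 : poiOk (mkPar 32 65) qs g1 g2 GG.g4 5 st15 st16 = true := by decide +kernel

def chunk16 : poiOk (mkPar 32 65) qs g1 g2 GG.g4 5 st16 st17 = true := by decide +kernel

def chunk17 : poiOk (mkPar 32 65) qs g1 g2 GG.g4 5 st17 st18 = true := by decide +kernel

def chunk18 : poiOk (mkPar 32 65) qs g1 g2 GG.g4 5 st18 st19 = true := by decide +kernel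

def chunk19 : poiOk (mkPar 32 65) qs g1 g2 GG.g4 5 st19 st20 = true := by decide +kernel

def end_ok : poiEndOk (mkPar 32 65) qs 1049 250 g1 g2 GG.g4 st20 9 1000 = true := by decide +kernel

end Vale.Agent.P154.Neg.Grid.Runs.E1.Poi
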