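import Vale.Agent.P154.Neg.Grid.Runs.Base
import Vale.Agent.P154.Neg.Grid.Runs.E1.Wit
import Vale.Agent.P154.Neg.Grid.Runs.E1.Agg
import Vale.Agent.P154.Neg.Grid.Runs.GG.Ok
import Vale.Agent.P154.Neg.Grid.RunKids

/-!
# P154: checked data of the edge -32/65
-/

namespace Vale.Agent.P154.Neg.Grid.Runs.E1

theorem par_ok : parOk (mkPar 32 65) = true := by decide +kernel

theorem g1_ok : okWit (mkPar 32 65).one w1 g1 = true := by decide +kernel

def g2_p0 : okWitPart (mkPar 32 65).two w2 g2 26 0 = true := by decide +kernel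

def g2_p1 : okWitPart (mkPar 32 65).two w2 g2 26 1 = true := by decide +kernel

def g2_p2 : okWitPart (mkPar 32 65).two w2 g2 26 2 = true := by decide +kernel

def g2_p3 : okWitPart (mkPar 32 65).two w2 g2 26 3 = true := by decide +kernel

def g2_p4 : okWitPart (mkPar 32 65).two w2 g2 26 4 = true := by decide +kernel

def g2_p5 : okWitPart (mkPar 32 65).two w2 g2 26 5 = true := by decide +kernel

theorem g2_ok : okWit (mkPar 32 65).two w2 g2 = true :=
  okWit_of_parts (w := 26) (m := 6) (by decide) (by decide) fun i hi =>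
    match i, hi with
    | 0, _ => g2_p0
    | 1, _ => g2_p1
    | 2, _ => g2_p2
    | 3, _ => g2_p3
    | 4, _ => g2_p4
    | 5, _ => g2_p5


theorem tabs_ok : TabsOk (mkPar 32 65) g1 g2 GG.g4 :=
  ⟨⟨w1, g1_ok⟩, ⟨w2, g2_ok⟩, GG.four_ok 32 65⟩

end Vale.Agent.P154.Neg.Grid.Runs.E1
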